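import Vale.Agent.P145.FB.Geo
import Vale.Agent.P159.TM.H459.Tor

/-!
P159, T1, A6 (helper279): the bridge back from the fine lattice to the torus. The event `Ann p q t`
of a set `L` of the fine lattice which lies in the periodic lift of the positive open edges gives
459's event `OEv` (mass `0`) for the balls of radius `t`, `2 t`, `4 t` around the image of `(p, q)`.
-/

open Finset

set_option linter.unusedSectionVars false

namespace Vale.Agent.P159.TM.H279

open Vale.Agent.P145.FB (NN NC rc Ann annR mem_rc)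
open Vale.Agent.P159.TM.H60 (clus mem_clus inE mem_inE)
open Vale.Agent.P159.TM.H459

/-- the point of the torus below the integer point `(i, j)` -/
def im (N : ℕ) (i j : ℤ) : ZMod N × ZMod N := ((i : ZMod N), (j : ZMod N))

/-- `L` lies in the fine-lattice lift of the positive open edges -/
structure Lift (N : ℕ) [NeZero N] (D : ZMod N × ZMod N → ℤ)
    (om : Finset ((ZMod N × ZMod N) × Bool)) (L : Set (ℤ × ℤ)) : Prop where
  e00 : ∀ i j : ℤ, (2 * i, 2 * j) ∈ L → 0 < D (im N i j)
  e10 : ∀ i j : ℤ, (2 * i + 1, 2 * j) ∈ L → (im N i j, true) ∈ plusE tS tT D om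
  e01 : ∀ i j : ℤ, (2 * i, 2 * j + 1) ∈ L → (im N i j, false) ∈ plusE tS tT D om
  e11 : ∀ i j : ℤ, (2 * i + 1, 2 * j + 1) ∉ L

/-- the vertex `(i, j)` is the point `z` of the fine lattice or an end of the edge `z` -/
def Tch (z : ℤ × ℤ) (i j : ℤ) : Prop :=
  -1 ≤ z.1 - 2 * i ∧ z.1 - 2 * i ≤ 1 ∧ -1 ≤ z.2 - 2 * j ∧ z.2 - 2 * j ≤ 1 ∧
    (z.1 = 2 * i ∨ z.2 = 2 * j)

section

variable {N : ℕ} [NeZero N] {D : ZMod N × ZMod N → ℤ}
  {om : Finset ((ZMod N × ZMod N) × Bool)} {L : Set (ℤ × ℤ)}

lemma im_right (i j : ℤ) : im N i j + dir N true = im N (i + 1) j := by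
  simp [im, dir]

lemma im_up (i j : ℤ) : im N i j + dir N false = im N i (j + 1) := by
  simp [im, dir]

lemma im_left (i j : ℤ) : im N (i - 1) j + dir N true = im N i j := by
  simp [im, dir]

lemma im_down (i j : ℤ) : im N i (j - 1) + dir N false = im N i j := by
  simp [im, dir]

lemma im_sub (i j a b : ℤ) : im N i j - im N a b = im N (i - a) (j - b) := by
  simp [im]

lemma vma_le (k : ℤ) : ((k : ZMod N)).valMinAbs.natAbs ≤ k.natAbs := by
  apply ZMod.natAbs_min_of_le_div_two N
  · rw [ZMod.coe_valMinAbs]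
  · exact ZMod.natAbs_valMinAbs_le _

lemma sd_im_le {p q i j : ℤ} {r : ℕ} (h1 : (i - p).natAbs ≤ r) (h2 : (j - q).natAbs ≤ r) :
    sd (im N p q) (im N i j) ≤ r := by
  unfold sd
  rw [im_sub]
  unfold sn im
  have h3 := vma_le (N := N) (i - p)
  have h4 := vma_le (N := N) (j - q)
  exact max_le (h3.trans h1) (h4.trans h2)

lemma far_of {p q i j : ℤ} {r : ℕ} (h : r < sd (im N p q) (im N i j)) :
    r < (i - p).natAbs ∨ r < (j - q).natAbs := by
  by_contra hcon
  push Not at hcon
  exact absurd (sd_im_le hcon.1 hcon.2) (not_le.2 h)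

lemma near_of {x0 z : ZMod N × ZMod N} {p q : ℤ} {r : ℕ} (hx : im N p q = x0)
    (h : sd x0 z ≤ r) : ∃ a b : ℤ, im N a b = z ∧ (a - p).natAbs ≤ r ∧ (b - q).natAbs ≤ r := by
  unfold sd sn at h
  refine ⟨p + (z - x0).1.valMinAbs, q + (z - x0).2.valMinAbs, ?_, ?_, ?_⟩
  · unfold im
    rw [← hx]
    ext
    · simp [im]
    · simp [im]
  · have : p + (z - x0).1.valMinAbs - p = (z - x0).1.valMinAbs := by ring
    rw [this]
    exact (le_max_left _ _).trans h
  · have : q + (z - x0).2.valMinAbs - q = (z - x0).2.valMinAbs := by ring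
    rw [this]
    exact (le_max_right _ _).trans h

/-- every point of the torus is an image -/
lemma im_surj (x0 : ZMod N × ZMod N) : ∃ p q : ℤ, im N p q = x0 := by
  refine ⟨x0.1.valMinAbs, x0.2.valMinAbs, ?_⟩
  unfold im
  ext <;> simp

/-- two vertices which touch the same point of `L` are joined by positive open edges -/
lemma tch_conn (hL : Lift N D om L) {B : Finset (ZMod N × ZMod N)} {z : ℤ × ℤ} (hz : z ∈ L)
    {a b i j : ℤ} (h1 : Tch z a b) (h2 : Tch z i j) (hB1 : im N a b ∈ B) (hB2 : im N i j ∈ B) :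
    H60.Conn tS tT (plusE tS tT D om ∩ inE tS tT B) (im N a b) (im N i j) := by
  obtain ⟨z1, z2⟩ := z
  unfold Tch at h1 h2
  dsimp only at h1 h2
  have key : ∀ (v w : ZMod N × ZMod N) (c : Bool), (v, c) ∈ plusE tS tT D om → v + dir N c = w →
      v ∈ B → w ∈ B → H60.Conn tS tT (plusE tS tT D om ∩ inE tS tT B) v w := by
    intro v w c he hvw hv hw
    have he' : (v, c) ∈ plusE tS tT D om ∩ inE tS tT B := by
      rw [Finset.mem_inter, mem_inE]
      refine ⟨he, hv, ?_⟩
      show v + dir N c ∈ B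
      rw [hvw]; exact hw
    have h3 := H60.Conn.edge (a := tS) (b := tT) he'
    have h4 : tT (v, c) = w := hvw
    rw [h4] at h3
    exact h3
  rcases Int.even_or_odd' z1 with ⟨k, hk | hk⟩ <;> rcases Int.even_or_odd' z2 with ⟨l, hl | hl⟩
  · have e1 : a = i := by omega
    have e2 : b = j := by omega
    subst e1; subst e2
    exact H60.Conn.refl _
  · have e1 : a = i := by omega
    have e2 : a = k := by omega
    subst e1; subst e2
    have he := hL.e01 a l (by rw [← hk, ← hl]; exact hz)
    rcases (by omega : b = l ∨ b = l + 1) with hb | hb <;>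
      rcases (by omega : j = l ∨ j = l + 1) with hj | hj
    · subst hb; subst hj; exact H60.Conn.refl _
    · subst hb; subst hj
      exact key _ _ false he (im_up a b) hB1 hB2
    · subst hb; subst hj
      exact (key _ _ false he (im_up a j) hB2 hB1).symm
    · subst hb; subst hj; exact H60.Conn.refl _
  · have e1 : b = j := by omega
    have e2 : b = l := by omega
    subst e1; subst e2
    have he := hL.e10 k b (by rw [← hk, ← hl]; exact hz)
    rcases (by omega : a = k ∨ a = k + 1) with hb | hb <;>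
      rcases (by omega : i = k ∨ i = k + 1) with hj | hj
    · subst hb; subst hj; exact H60.Conn.refl _
    · subst hb; subst hj
      exact key _ _ true he (im_right a b) hB1 hB2
    · subst hb; subst hj
      exact (key _ _ true he (im_right i b) hB2 hB1).symm
    · subst hb; subst hj; exact H60.Conn.refl _
  · exact absurd hz (by rw [hk, hl]; exact hL.e11 k l)

/-- neighbours in `L` touch a common vertex -/
lemma tch_common (hL : Lift N D om L) {z w : ℤ × ℤ} (hz : z ∈ L) (hw : w ∈ L) (h : NN z w) :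
    ∃ a b : ℤ, Tch z a b ∧ Tch w a b := by
  obtain ⟨z1, z2⟩ := z
  obtain ⟨w1, w2⟩ := w
  unfold NN at h
  dsimp only at h
  unfold Tch
  dsimp only
  rcases Int.even_or_odd' z1 with ⟨k, hk | hk⟩ <;> rcases Int.even_or_odd' z2 with ⟨l, hl | hl⟩
  · exact ⟨k, l, by omega⟩
  · rcases Int.even_or_odd' w2 with ⟨m, hm | hm⟩
    · exact ⟨k, m, by omega⟩
    · rcases Int.even_or_odd' w1 with ⟨n, hn | hn⟩
      · omega
      · exact absurd hw (by rw [hn, hm]; exact hL.e11 n m)
  · rcases Int.even_or_odd' w1 with ⟨m, hm | hm⟩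
    · exact ⟨m, l, by omega⟩
    · rcases Int.even_or_odd' w2 with ⟨n, hn | hn⟩
      · omega
      · exact absurd hw (by rw [hn, hm]; exact hL.e11 m n)
  · exact absurd hz (by rw [hk, hl]; exact hL.e11 k l)

/-- a point of `L` touches a vertex with a positive value -/
lemma tch_pos (hL : Lift N D om L) {z : ℤ × ℤ} (hz : z ∈ L) :
    ∃ a b : ℤ, Tch z a b ∧ 0 < D (im N a b) := by
  obtain ⟨z1, z2⟩ := z
  unfold Tch
  dsimp only
  rcases Int.even_or_odd' z1 with ⟨k, hk | hk⟩ <;> rcases Int.even_or_odd' z2 with ⟨l, hl | hl⟩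
  · exact ⟨k, l, by omega, hL.e00 k l (by rw [← hk, ← hl]; exact hz)⟩
  · exact ⟨k, l, by omega, (mem_plusE.1 (hL.e01 k l (by rw [← hk, ← hl]; exact hz))).2.1⟩
  · exact ⟨k, l, by omega, (mem_plusE.1 (hL.e10 k l (by rw [← hk, ← hl]; exact hz))).2.1⟩
  · exact absurd hz (by rw [hk, hl]; exact hL.e11 k l)

/-- **BRIDGE**: the four crossings around a box give the blocking cluster on the torus -/
theorem oev_of_ann (hL : Lift N D om L) (p q : ℤ) {t : ℕ} (ht : 0 < t)
    (hA : Ann p q t L) :
    OEv tS tT (ball (im N p q) t) (ball (im N p q) (2 * t)) (ball (im N p q) (4 * t)) 0 D om := by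
  obtain ⟨o, ho, hcl⟩ := Vale.Agent.P145.FB.Ann.cluster (by exact_mod_cast ht) hA
  set B4 := ball (im N p q) (4 * t) with hB4
  have hin : ∀ {z : ℤ × ℤ}, z ∈ annR p q t → ∀ {a b : ℤ}, Tch z a b → im N a b ∈ B4 := by
    intro z hz a b h
    have h1 := Vale.Agent.P145.FB.annR_sub p q t hz
    rw [mem_rc] at h1
    unfold Tch at h
    rw [hB4, mem_ball]
    exact sd_im_le (by omega) (by omega)
  obtain ⟨a0, b0, h0, hpos⟩ := tch_pos hL ho.1
  set u := im N a0 b0 with hu
  have hinv : ∀ w, NC (L ∩ annR p q t) o w → ∀ a b : ℤ, Tch w a b →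
      im N a b ∈ Kc tS tT B4 D om u := by
    intro w hw
    refine Vale.Agent.P145.FB.NC.ind (fun w => ∀ a b : ℤ, Tch w a b →
      im N a b ∈ Kc tS tT B4 D om u) ?_ ?_ hw
    · intro a b h
      exact mem_clus.2 (tch_conn hL ho.1 h0 h (hin ho.2 h0) (hin ho.2 h))
    · intro x y hx hxy hy ih a b h
      have hxm := hx.right_mem
      obtain ⟨c, d, h1, h2⟩ := tch_common hL hxm.1 hy.1 hxy
      exact mem_clus.2 ((mem_clus.1 (ih c d h1)).trans
        (tch_conn hL hy.1 h2 h (hin hy.2 h2) (hin hy.2 h)))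
  refine ⟨u, hin ho.2 h0, hpos, Nat.zero_le _, ?_⟩
  set K := Kc tS tT B4 D om u with hK
  intro x hx y hy hc
  rw [mem_ball] at hx hy
  have hxK : x ∉ K := by
    rcases Relation.ReflTransGen.cases_head hc with h | ⟨z, h, _⟩
    · subst h
      exact absurd (hx.trans (by omega)) hy
    · exact h.2.1
  obtain ⟨a, b, hab, ha, hb⟩ := near_of (N := N) rfl hx
  let W : Set (ℤ × ℤ) := {w | ∀ i j : ℤ, Tch w i j → im N i j ∉ K}
  have hvert : ∀ i j : ℤ, im N i j ∉ K → ((2 * i, 2 * j) : ℤ × ℤ) ∈ W := by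
    intro i j h i' j' h'
    unfold Tch at h'
    dsimp only at h'
    have e1 : i' = i := by omega
    have e2 : j' = j := by omega
    subst e1; subst e2
    exact h
  have hh : ∀ i j : ℤ, im N i j ∉ K → im N (i + 1) j ∉ K → ((2 * i + 1, 2 * j) : ℤ × ℤ) ∈ W := by
    intro i j h h2 i' j' h'
    unfold Tch at h'
    dsimp only at h'
    have e2 : j' = j := by omega
    subst e2
    rcases (by omega : i' = i ∨ i' = i + 1) with e | e <;> subst e <;> assumption
  have hv : ∀ i j : ℤ, im N i j ∉ K → im N i (j + 1) ∉ K → ((2 * i, 2 * j + 1) : ℤ × ℤ) ∈ W := by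
    intro i j h h2 i' j' h'
    unfold Tch at h'
    dsimp only at h'
    have e2 : i' = i := by omega
    subst e2
    rcases (by omega : j' = j ∨ j' = j + 1) with e | e <;> subst e <;> assumption
  have nadj : ∀ {z w : ℤ × ℤ}, NN z w → Vale.Agent.P153.Adj z w := fun h => h.adj
  have key : ∀ z, Relation.ReflTransGen (fun y z => H60.Adj tS tT univ y z ∧ y ∉ K ∧ z ∉ K) x z →
      ∃ i j : ℤ, im N i j = z ∧ z ∉ K ∧
        Vale.Agent.P153.Topo.Conn W (2 * a, 2 * b) (2 * i, 2 * j) := by
    intro z hz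
    induction hz with
    | refl => exact ⟨a, b, hab, hxK, Vale.Agent.P153.Topo.Conn.refl (hvert a b (by rw [hab]; exact hxK))⟩
    | @tail y z _ h2 ih =>
      obtain ⟨i, j, hij, hyK, hcon⟩ := ih
      obtain ⟨⟨e, _, he⟩, _, hzK⟩ := h2
      obtain ⟨v, c⟩ := e
      have hS : tS (v, c) = v := rfl
      have hT : tT (v, c) = v + dir N c := rfl
      rw [hS, hT] at he
      rcases he with ⟨h3, h4⟩ | ⟨h3, h4⟩
      · -- forward
        subst h3
        rw [← hij] at h4 hyK
        cases c
        · rw [im_up] at h4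
          rw [← h4] at hzK ⊢
          exact ⟨i, j + 1, rfl, hzK, (hcon.tail (nadj (by unfold NN; omega))
            (hv i j hyK hzK)).tail (nadj (by unfold NN; omega)) (hvert i (j + 1) hzK)⟩
        · rw [im_right] at h4
          rw [← h4] at hzK ⊢
          exact ⟨i + 1, j, rfl, hzK, (hcon.tail (nadj (by unfold NN; omega))
            (hh i j hyK hzK)).tail (nadj (by unfold NN; omega)) (hvert (i + 1) j hzK)⟩
      · -- backward
        subst h3
        rw [← hij] at h4 hyK
        cases c
        · have h5 : v = im N i (j - 1) := by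
            rw [← im_down] at h4
            exact add_right_cancel h4
          rw [h5] at hzK ⊢
          have hj : j - 1 + 1 = j := by ring
          exact ⟨i, j - 1, rfl, hzK, (hcon.tail (nadj (by unfold NN; omega))
            (hv i (j - 1) hzK (by rw [hj]; exact hyK))).tail
              (nadj (by unfold NN; omega)) (hvert i (j - 1) hzK)⟩
        · have h5 : v = im N (i - 1) j := by
            rw [← im_left] at h4
            exact add_right_cancel h4
          rw [h5] at hzK ⊢
          have hj : i - 1 + 1 = i := by ring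
          exact ⟨i - 1, j, rfl, hzK, (hcon.tail (nadj (by unfold NN; omega))
            (hh (i - 1) j hzK (by rw [hj]; exact hyK))).tail
              (nadj (by unfold NN; omega)) (hvert (i - 1) j hzK)⟩
  obtain ⟨i, j, hij, _, hcon⟩ := key y hc
  have hfar : 2 * t < (i - p).natAbs ∨ 2 * t < (j - q).natAbs := by
    apply far_of (N := N)
    rw [hij]
    exact not_le.1 hy
  obtain ⟨w, hwW, hwo⟩ := hcl W _ _ hcon
    (by rw [mem_rc]; dsimp only; omega) (by dsimp only; omega)
  have hwL := hwo.right_mem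
  obtain ⟨c, d, hcd, _⟩ := tch_pos hL hwL.1
  exact hwW c d hcd (hinv w hwo c d hcd)

end

end Vale.Agent.P159.TM.H279
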