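import Mathlib

/-!
P159, T1: grid sums used with the covariance bound of `Scale.lean` and the decoupling of `Tail.lean`.
-/

namespace Vale.Agent.P159.TM.H279

open Real Finset

/-- `∑_{k<n} (k+1)^{-c} ≤ n^{1-c}/(1-c)` for `0 ≤ c < 1`. -/
lemma sum_rpow_le {c : ℝ} (h0 : 0 ≤ c) (h1 : c < 1) (n : ℕ) :
    ∑ k ∈ range n, ((k : ℝ) + 1) ^ (-c) ≤ (n : ℝ) ^ (1 - c) / (1 - c) := by
  have hp : 0 < 1 - c := by linarith
  induction n with
  | zero => simp; exact div_nonneg (by positivity) hp.le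
  | succ n ih =>
    rw [sum_range_succ]
    have hb : (n : ℝ) ^ (1 - c) ≤ ((n : ℝ) + 1) ^ (1 - c) - (1 - c) * ((n : ℝ) + 1) ^ (-c) := by
      have hn : (0 : ℝ) < (n : ℝ) + 1 := by positivity
      have e : (n : ℝ) = ((n : ℝ) + 1) * (1 + (-1 / ((n : ℝ) + 1))) := by field_simp; ring
      have hs : (-1 : ℝ) ≤ -1 / ((n : ℝ) + 1) := by
        rw [le_div_iff₀ hn]; nlinarith [(Nat.cast_nonneg n : (0:ℝ) ≤ n)]
      have hB := _root_.rpow_one_add_le_one_add_mul_self hs hp.le (by linarith : 1 - c ≤ 1)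
      have hpos : 0 ≤ 1 + (-1 / ((n : ℝ) + 1)) := by linarith
      calc (n : ℝ) ^ (1 - c) = (((n : ℝ) + 1) * (1 + (-1 / ((n : ℝ) + 1)))) ^ (1 - c) := by rw [← e]
        _ = ((n : ℝ) + 1) ^ (1 - c) * (1 + (-1 / ((n : ℝ) + 1))) ^ (1 - c) :=
            Real.mul_rpow hn.le hpos
        _ ≤ ((n : ℝ) + 1) ^ (1 - c) * (1 + (1 - c) * (-1 / ((n : ℝ) + 1))) :=
            mul_le_mul_of_nonneg_left hB (by positivity)
        _ = ((n : ℝ) + 1) ^ (1 - c) - (1 - c) * (((n : ℝ) + 1) ^ (1 - c) / ((n : ℝ) + 1)) := by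
            field_simp; ring
        _ = ((n : ℝ) + 1) ^ (1 - c) - (1 - c) * ((n : ℝ) + 1) ^ (-c) := by
            rw [show (-c : ℝ) = (1 - c) - 1 by ring, Real.rpow_sub hn (1 - c) 1, Real.rpow_one]
    have : ((n : ℝ) + 1) ^ (-c) ≤ (((n : ℝ) + 1) ^ (1 - c) - (n : ℝ) ^ (1 - c)) / (1 - c) := by
      rw [le_div_iff₀ hp]; linarith
    push_cast
    calc ∑ k ∈ range n, ((k : ℝ) + 1) ^ (-c) + ((n : ℝ) + 1) ^ (-c)
        ≤ (n : ℝ) ^ (1 - c) / (1 - c)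
          + (((n : ℝ) + 1) ^ (1 - c) - (n : ℝ) ^ (1 - c)) / (1 - c) := add_le_add ih this
      _ = ((n : ℝ) + 1) ^ (1 - c) / (1 - c) := by ring

/-- Sum over a segment of a nonnegative function of the distance. -/
lemma sum_dist_le {g : ℕ → ℝ} (hg : ∀ k, 0 ≤ g k) {n : ℕ} (x : ℕ) (hx : x < n) :
    ∑ y ∈ range n, g ((x : ℤ) - y).natAbs ≤ 2 * ∑ k ∈ range n, g k := by
  classical
  rw [two_mul, ← sum_filter_add_sum_filter_not (range n) (fun y => y ≤ x)]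
  apply add_le_add
  · have : ∑ y ∈ (range n).filter (fun y => y ≤ x), g ((x : ℤ) - y).natAbs
        = ∑ k ∈ ((range n).filter (fun y => y ≤ x)).image (fun y : ℕ => ((x : ℤ) - (y : ℤ)).natAbs), g k := by
      rw [sum_image]
      intro a ha b hb hab
      simp only [coe_filter, mem_range, Set.mem_ofPred_eq] at ha hb hab
      omega
    rw [this]
    apply sum_le_sum_of_subset_of_nonneg
    · intro k hk
      simp only [mem_image, mem_filter, mem_range] at hk ⊢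
      obtain ⟨y, ⟨h1, h2⟩, rfl⟩ := hk
      omega
    · intro k _ _; exact hg k
  · have : ∑ y ∈ (range n).filter (fun y => ¬ y ≤ x), g ((x : ℤ) - y).natAbs
        = ∑ k ∈ ((range n).filter (fun y => ¬ y ≤ x)).image (fun y : ℕ => ((x : ℤ) - (y : ℤ)).natAbs),
          g k := by
      rw [sum_image]
      intro a ha b hb hab
      simp only [coe_filter, mem_range, Set.mem_ofPred_eq] at ha hb hab
      omega
    rw [this]
    apply sum_le_sum_of_subset_of_nonneg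
    · intro k hk
      simp only [mem_image, mem_filter, mem_range] at hk ⊢
      obtain ⟨y, ⟨h1, h2⟩, rfl⟩ := hk
      omega
    · intro k _ _; exact hg k

/-- Double sum over the `n × n` grid, decay in the first coordinate only. -/
theorem grid_pair_sum {c K : ℝ} (h0 : 0 ≤ c) (h1 : c < 1) (hK : 0 ≤ K) {n : ℕ} (hn : 0 < n)
    (f : Fin n × Fin n → Fin n × Fin n → ℝ)
    (hf : ∀ u v, f u v ≤ K * ((((u.1 : ℤ) - (v.1 : ℤ)).natAbs : ℝ) + 1) ^ (-c)) :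
    (∑ u, ∑ v, f u v) ≤ (2 * K / (1 - c)) * (n : ℝ) ^ (-c) * (n : ℝ) ^ 4 := by
  have hp : 0 < 1 - c := by linarith
  have hn' : (0 : ℝ) < n := by exact_mod_cast hn
  have step : ∀ u : Fin n × Fin n, ∑ v, f u v ≤ n * (K * (2 * ((n : ℝ) ^ (1 - c) / (1 - c)))) := by
    intro u
    calc ∑ v, f u v ≤ ∑ v : Fin n × Fin n,
          K * ((((u.1 : ℤ) - (v.1 : ℤ)).natAbs : ℝ) + 1) ^ (-c) := sum_le_sum fun v _ => hf u v
      _ = ∑ y : Fin n, ∑ _z : Fin n, K * ((((u.1 : ℤ) - (y : ℤ)).natAbs : ℝ) + 1) ^ (-c) := by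
          rw [Fintype.sum_prod_type]
      _ = n * (K * ∑ y : Fin n, ((((u.1 : ℤ) - (y : ℤ)).natAbs : ℝ) + 1) ^ (-c)) := by
          simp only [sum_const, card_univ, Fintype.card_fin, nsmul_eq_mul]
          rw [← mul_sum, ← mul_sum]
      _ ≤ n * (K * (2 * ((n : ℝ) ^ (1 - c) / (1 - c)))) := by
          apply mul_le_mul_of_nonneg_left _ hn'.le
          apply mul_le_mul_of_nonneg_left _ hK
          have e : ∑ y : Fin n, ((((u.1 : ℤ) - (y : ℤ)).natAbs : ℝ) + 1) ^ (-c)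
              = ∑ y ∈ range n, ((((u.1 : ℤ) - (y : ℤ)).natAbs : ℝ) + 1) ^ (-c) :=
            Fin.sum_univ_eq_sum_range
              (fun y : ℕ => ((((u.1 : ℤ) - (y : ℤ)).natAbs : ℝ) + 1) ^ (-c)) n
          rw [e]
          calc _ ≤ 2 * ∑ k ∈ range n, ((k : ℝ) + 1) ^ (-c) :=
                sum_dist_le (g := fun k => ((k : ℝ) + 1) ^ (-c)) (fun k => by positivity)
                  (u.1 : ℕ) u.1.2
            _ ≤ _ := mul_le_mul_of_nonneg_left (sum_rpow_le h0 h1 n) (by norm_num)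
  calc (∑ u, ∑ v, f u v) ≤ ∑ _u : Fin n × Fin n, n * (K * (2 * ((n : ℝ) ^ (1 - c) / (1 - c)))) :=
        sum_le_sum fun u _ => step u
    _ = (n : ℝ) * n * (n * (K * (2 * ((n : ℝ) ^ (1 - c) / (1 - c))))) := by
        simp [Fintype.card_prod]
    _ = (2 * K / (1 - c)) * (n : ℝ) ^ (-c) * (n : ℝ) ^ 4 := by
        rw [show (1 - c : ℝ) = 1 + (-c) by ring, Real.rpow_add hn', Real.rpow_one]
        field_simp

/-- Sum over the cells of an `m × m` grid of a bound decaying with the distance to the boundary. -/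
theorem grid_bdry_sum {c K : ℝ} (h0 : 0 ≤ c) (h1 : c < 1) (hK : 0 ≤ K) {m : ℕ}
    (f : Fin m × Fin m → ℝ)
    (hf : ∀ u, f u ≤ K * (((u.1 : ℝ) + 1) ^ (-c) + ((m - 1 - u.1 : ℕ) + 1 : ℝ) ^ (-c)
      + ((u.2 : ℝ) + 1) ^ (-c) + ((m - 1 - u.2 : ℕ) + 1 : ℝ) ^ (-c))) :
    (∑ u, f u) ≤ (4 * K / (1 - c)) * (m : ℝ) ^ (1 - c) * (m : ℝ) := by
  have hp : 0 < 1 - c := by linarith
  have S1 : ∑ x : Fin m, ((x : ℝ) + 1) ^ (-c) ≤ (m : ℝ) ^ (1 - c) / (1 - c) := by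
    rw [Fin.sum_univ_eq_sum_range (fun y : ℕ => ((y : ℝ) + 1) ^ (-c)) m]
    exact sum_rpow_le h0 h1 m
  have S2 : ∑ x : Fin m, ((m - 1 - x : ℕ) + 1 : ℝ) ^ (-c) ≤ (m : ℝ) ^ (1 - c) / (1 - c) := by
    rw [Fin.sum_univ_eq_sum_range (fun y : ℕ => ((m - 1 - y : ℕ) + 1 : ℝ) ^ (-c)) m,
      sum_range_reflect (fun y : ℕ => ((y : ℕ) + 1 : ℝ) ^ (-c)) m]
    exact sum_rpow_le h0 h1 m
  calc (∑ u, f u) ≤ ∑ u : Fin m × Fin m, K * (((u.1 : ℝ) + 1) ^ (-c)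
          + ((m - 1 - u.1 : ℕ) + 1 : ℝ) ^ (-c)
          + ((u.2 : ℝ) + 1) ^ (-c) + ((m - 1 - u.2 : ℕ) + 1 : ℝ) ^ (-c)) :=
        sum_le_sum fun u _ => hf u
    _ = K * (m * (∑ x : Fin m, ((x : ℝ) + 1) ^ (-c))
          + m * (∑ x : Fin m, ((m - 1 - x : ℕ) + 1 : ℝ) ^ (-c))
          + m * (∑ x : Fin m, ((x : ℝ) + 1) ^ (-c))
          + m * (∑ x : Fin m, ((m - 1 - x : ℕ) + 1 : ℝ) ^ (-c))) := by
        rw [← mul_sum, Fintype.sum_prod_type]
        simp only [sum_add_distrib, sum_const, card_univ, Fintype.card_fin, nsmul_eq_mul, ← mul_sum]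
    _ ≤ K * (m * ((m : ℝ) ^ (1 - c) / (1 - c)) + m * ((m : ℝ) ^ (1 - c) / (1 - c))
          + m * ((m : ℝ) ^ (1 - c) / (1 - c)) + m * ((m : ℝ) ^ (1 - c) / (1 - c))) := by
        gcongr
    _ = (4 * K / (1 - c)) * (m : ℝ) ^ (1 - c) * (m : ℝ) := by ring

end Vale.Agent.P159.TM.H279
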