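import Mathlib

/-!
P159, T1: abstract leaves (1) of #14341.
Covariance bound from the sandwich inequality for Laplace transforms, and the variance of
averages over a family with decaying sandwich constants.
-/

namespace Vale.Agent.P159.TM.H279

open MeasureTheory Real Finset

variable {Ω : Type*} [MeasurableSpace Ω] {μ : Measure Ω}

/-- elementary: `0 ≤ (1 - e^{-l x})/l ≤ x` for `x ≥ 0`, `l > 0` -/
lemma amp_le {l x : ℝ} (hl : 0 < l) : (1 - exp (-(l * x))) / l ≤ x := by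
  rw [div_le_iff₀ hl]
  have := Real.add_one_le_exp (-(l * x))
  nlinarith

lemma amp_nonneg {l x : ℝ} (hl : 0 < l) (hx : 0 ≤ x) : 0 ≤ (1 - exp (-(l * x))) / l := by
  apply div_nonneg _ hl.le
  have : exp (-(l * x)) ≤ 1 := Real.exp_le_one_iff.2 (by nlinarith [mul_nonneg hl.le hx])
  linarith

lemma exp_neg_le_quad {y : ℝ} (hy : 0 ≤ y) : exp (-y) ≤ 1 - y + y ^ 2 / 2 := by
  have h1 : 1 + y + y ^ 2 / 2 ≤ exp y := Real.quadratic_le_exp_of_nonneg hy
  have h2 : exp (-y) = 1 / exp y := by rw [Real.exp_neg, one_div]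
  rw [h2, div_le_iff₀ (exp_pos y)]
  have h3 : 0 < 1 + y + y ^ 2 / 2 := by positivity
  have h4 : 0 ≤ 1 - y + y ^ 2 / 2 := by nlinarith [sq_nonneg (y - 1)]
  have h5 : (1 - y + y ^ 2 / 2) * (1 + y + y ^ 2 / 2) = 1 + y ^ 4 / 4 := by ring
  have h6 : 0 ≤ y ^ 4 / 4 := by positivity
  calc (1 : ℝ) ≤ 1 + y ^ 4 / 4 := by linarith
    _ = (1 - y + y ^ 2 / 2) * (1 + y + y ^ 2 / 2) := h5.symm
    _ ≤ _ := mul_le_mul_of_nonneg_left h1 h4

/-- `x - (1 - e^{-l x})/l ≤ l x²/2` -/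
lemma sub_amp_le {l x : ℝ} (hl : 0 < l) (hx : 0 ≤ x) :
    x - (1 - exp (-(l * x))) / l ≤ l * x ^ 2 / 2 := by
  have h := exp_neg_le_quad (mul_nonneg hl.le hx)
  have : x - (1 - exp (-(l * x))) / l = (l * x - 1 + exp (-(l * x))) / l := by
    field_simp; ring
  rw [this, div_le_iff₀ hl]
  nlinarith

/-- **Covariance from the sandwich.**  If the joint Laplace transform of two nonnegative random
variables is at most `e^T` times the product, then the covariance is at most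
`(e^T - 1)/l² + l M`, where `M` bounds the mixed third moments. -/
theorem cov_le_aux [IsProbabilityMeasure μ] {V V' : Ω → ℝ} (hV : 0 ≤ V) (hV' : 0 ≤ V')
    {T M l : ℝ} (hl : 0 < l)
    (mV : Integrable V μ) (mV' : Integrable V' μ)
    (mVV : Integrable (fun ω => V ω * V' ω) μ)
    (m1 : Integrable (fun ω => V ω ^ 2 * V' ω) μ) (m2 : Integrable (fun ω => V ω * V' ω ^ 2) μ)
    (b1 : ∫ ω, V ω ^ 2 * V' ω ∂μ ≤ M) (b2 : ∫ ω, V ω * V' ω ^ 2 ∂μ ≤ M)
    (hT : ∫ ω, exp (-(l * V ω) - l * V' ω) ∂μ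
      ≤ exp T * ((∫ ω, exp (-(l * V ω)) ∂μ) * ∫ ω, exp (-(l * V' ω)) ∂μ)) (hT0 : 0 ≤ T) :
    ∫ ω, V ω * V' ω ∂μ - (∫ ω, V ω ∂μ) * ∫ ω, V' ω ∂μ ≤ (exp T - 1) / l ^ 2 + l * M := by
  -- the exponentials are bounded, hence integrable
  have aV : AEStronglyMeasurable V μ := mV.1
  have aV' : AEStronglyMeasurable V' μ := mV'.1
  have ie : Integrable (fun ω => exp (-(l * V ω))) μ := by
    refine Integrable.mono' (integrable_const (1 : ℝ)) ?_ ?_
    · exact Real.continuous_exp.comp_aestronglyMeasurable ((aV.const_mul l).neg)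
    · refine Filter.Eventually.of_forall fun ω => ?_
      rw [Real.norm_eq_abs, abs_of_pos (exp_pos _)]
      exact Real.exp_le_one_iff.2 (by nlinarith [mul_nonneg hl.le (hV ω)])
  have ie' : Integrable (fun ω => exp (-(l * V' ω))) μ := by
    refine Integrable.mono' (integrable_const (1 : ℝ)) ?_ ?_
    · exact Real.continuous_exp.comp_aestronglyMeasurable ((aV'.const_mul l).neg)
    · refine Filter.Eventually.of_forall fun ω => ?_
      rw [Real.norm_eq_abs, abs_of_pos (exp_pos _)]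
      exact Real.exp_le_one_iff.2 (by nlinarith [mul_nonneg hl.le (hV' ω)])
  have iee : Integrable (fun ω => exp (-(l * V ω) - l * V' ω)) μ := by
    refine Integrable.mono' (integrable_const (1 : ℝ)) ?_ ?_
    · exact Real.continuous_exp.comp_aestronglyMeasurable
        (((aV.const_mul l).neg).sub (aV'.const_mul l))
    · refine Filter.Eventually.of_forall fun ω => ?_
      rw [Real.norm_eq_abs, abs_of_pos (exp_pos _)]
      exact Real.exp_le_one_iff.2 (by nlinarith [mul_nonneg hl.le (hV' ω), mul_nonneg hl.le (hV ω)])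
  set A : Ω → ℝ := fun ω => (1 - exp (-(l * V ω))) / l with hA
  set A' : Ω → ℝ := fun ω => (1 - exp (-(l * V' ω))) / l with hA'
  have iA : Integrable A μ := ((integrable_const 1).sub ie).div_const l
  have iA' : Integrable A' μ := ((integrable_const 1).sub ie').div_const l
  have eAA : (fun ω => A ω * A' ω) = fun ω =>
      (1 - exp (-(l * V ω)) - exp (-(l * V' ω)) + exp (-(l * V ω) - l * V' ω)) / l ^ 2 := by
    funext ω
    simp only [hA, hA']
    rw [sub_eq_add_neg (-(l * V ω)), Real.exp_add]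
    field_simp
    ring
  have iAA : Integrable (fun ω => A ω * A' ω) μ := by
    rw [eAA]
    exact ((((integrable_const 1).sub ie).sub ie').add iee).div_const _
  set a := ∫ ω, exp (-(l * V ω)) ∂μ with ha
  set a' := ∫ ω, exp (-(l * V' ω)) ∂μ with ha'
  have a0 : 0 ≤ a := integral_nonneg fun ω => (exp_pos _).le
  have a0' : 0 ≤ a' := integral_nonneg fun ω => (exp_pos _).le
  have a1 : a ≤ 1 := by
    calc a ≤ ∫ _, (1 : ℝ) ∂μ := by
          apply integral_mono ie (integrable_const _)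
          intro ω
          exact Real.exp_le_one_iff.2 (by nlinarith [mul_nonneg hl.le (hV ω)])
      _ = 1 := by simp
  have a1' : a' ≤ 1 := by
    calc a' ≤ ∫ _, (1 : ℝ) ∂μ := by
          apply integral_mono ie' (integrable_const _)
          intro ω
          exact Real.exp_le_one_iff.2 (by nlinarith [mul_nonneg hl.le (hV' ω)])
      _ = 1 := by simp
  have IA : ∫ ω, A ω ∂μ = (1 - a) / l := by
    simp only [hA]
    rw [integral_div, integral_sub (integrable_const _) ie]; simp [ha]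
  have IA' : ∫ ω, A' ω ∂μ = (1 - a') / l := by
    simp only [hA']
    rw [integral_div, integral_sub (integrable_const _) ie']; simp [ha']
  have IAA : ∫ ω, A ω * A' ω ∂μ
      = (1 - a - a' + ∫ ω, exp (-(l * V ω) - l * V' ω) ∂μ) / l ^ 2 := by
    have j1 : Integrable (fun ω => (1 : ℝ) - exp (-(l * V ω))) μ := (integrable_const 1).sub ie
    have j2 : Integrable (fun ω => (1 : ℝ) - exp (-(l * V ω)) - exp (-(l * V' ω))) μ := j1.sub ie'
    rw [eAA, integral_div, integral_add j2 iee, integral_sub j1 ie',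
      integral_sub (integrable_const _) ie]
    simp [ha, ha']
  have hAA : ∫ ω, A ω * A' ω ∂μ ≤ (∫ ω, A ω ∂μ) * (∫ ω, A' ω ∂μ) + (exp T - 1) / l ^ 2 := by
    rw [IAA, IA, IA']
    have : (1 - a) / l * ((1 - a') / l) + (exp T - 1) / l ^ 2
        = ((1 - a) * (1 - a') + (exp T - 1)) / l ^ 2 := by field_simp
    rw [this]
    apply div_le_div_of_nonneg_right _ (by positivity)
    have hT1 : 0 ≤ exp T - 1 := by linarith [Real.add_one_le_exp T]
    have haa : a * a' ≤ 1 := by nlinarith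
    nlinarith [mul_le_mul_of_nonneg_left haa hT1]
  have hAV : ∫ ω, A ω ∂μ ≤ ∫ ω, V ω ∂μ := integral_mono iA mV fun ω => amp_le hl
  have hAV' : ∫ ω, A' ω ∂μ ≤ ∫ ω, V' ω ∂μ := integral_mono iA' mV' fun ω => amp_le hl
  have hA0 : 0 ≤ ∫ ω, A ω ∂μ := integral_nonneg fun ω => amp_nonneg hl (hV ω)
  have hA0' : 0 ≤ ∫ ω, A' ω ∂μ := integral_nonneg fun ω => amp_nonneg hl (hV' ω)
  have key : ∫ ω, V ω * V' ω ∂μ ≤ ∫ ω, (A ω * A' ω + (l / 2) * (V ω ^ 2 * V' ω)
      + (l / 2) * (V ω * V' ω ^ 2)) ∂μ := by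
    apply integral_mono mVV
      ((iAA.add (m1.const_mul _)).add (m2.const_mul _))
    intro ω
    have h1 := sub_amp_le hl (hV ω)
    have h2 := sub_amp_le hl (hV' ω)
    have h3 : A ω ≤ V ω := amp_le hl
    have h4 : 0 ≤ A ω := amp_nonneg hl (hV ω)
    have h5 : 0 ≤ V' ω := hV' ω
    have h6 : 0 ≤ V ω := hV ω
    have h7 : V ω - A ω ≤ l * V ω ^ 2 / 2 := h1
    have h8 : V' ω - A' ω ≤ l * V' ω ^ 2 / 2 := h2
    show V ω * V' ω ≤ A ω * A' ω + (l / 2) * (V ω ^ 2 * V' ω) + (l / 2) * (V ω * V' ω ^ 2)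
    have e1 : V ω * V' ω = (V ω - A ω) * V' ω + A ω * (V' ω - A' ω) + A ω * A' ω := by ring
    have e2 : (V ω - A ω) * V' ω ≤ (l * V ω ^ 2 / 2) * V' ω := mul_le_mul_of_nonneg_right h7 h5
    have e3 : A ω * (V' ω - A' ω) ≤ V ω * (l * V' ω ^ 2 / 2) :=
      le_trans (mul_le_mul_of_nonneg_left h8 h4)
        (mul_le_mul_of_nonneg_right h3 (by positivity))
    nlinarith
  have j1 : Integrable (fun ω => (l / 2) * (V ω ^ 2 * V' ω)) μ := m1.const_mul _
  have j2 : Integrable (fun ω => (l / 2) * (V ω * V' ω ^ 2)) μ := m2.const_mul _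
  have j3 : Integrable (fun ω => A ω * A' ω + (l / 2) * (V ω ^ 2 * V' ω)) μ := iAA.add j1
  rw [integral_add j3 j2, integral_add iAA j1, integral_const_mul, integral_const_mul] at key
  have hprod : (∫ ω, A ω ∂μ) * (∫ ω, A' ω ∂μ) ≤ (∫ ω, V ω ∂μ) * ∫ ω, V' ω ∂μ :=
    mul_le_mul hAV hAV' hA0' (le_trans hA0 hAV)
  nlinarith [mul_le_mul_of_nonneg_left b1 (by positivity : (0:ℝ) ≤ l / 2),
    mul_le_mul_of_nonneg_left b2 (by positivity : (0:ℝ) ≤ l / 2)]

/-- Third moments give all the integrability and mixed moments needed. -/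
lemma mixed [IsProbabilityMeasure μ] {V V' : Ω → ℝ} (hV : 0 ≤ V) (hV' : 0 ≤ V') {M : ℝ}
    (aV : AEStronglyMeasurable V μ) (aV' : AEStronglyMeasurable V' μ)
    (i3 : Integrable (fun ω => V ω ^ 3) μ) (i3' : Integrable (fun ω => V' ω ^ 3) μ)
    (b3 : ∫ ω, V ω ^ 3 ∂μ ≤ M) (b3' : ∫ ω, V' ω ^ 3 ∂μ ≤ M) :
    Integrable V μ ∧ Integrable (fun ω => V ω * V' ω) μ ∧
      Integrable (fun ω => V ω ^ 2 * V' ω) μ ∧ (∫ ω, V ω ^ 2 * V' ω ∂μ ≤ M) ∧
      (∫ ω, V ω * V' ω ∂μ ≤ 1 + M) := by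
  have h1 : Integrable V μ := by
    refine Integrable.mono' ((integrable_const (1 : ℝ)).add i3) aV
      (Filter.Eventually.of_forall fun ω => ?_)
    have h := hV ω
    rw [Real.norm_eq_abs, abs_of_nonneg h]
    show V ω ≤ 1 + V ω ^ 3
    have h' : (0 : ℝ) ≤ V ω := h
    nlinarith [sq_nonneg (V ω - 1), mul_nonneg h' (sq_nonneg (V ω - 1)), sq_nonneg (V ω)]
  have pt : ∀ ω, V ω ^ 2 * V' ω ≤ (2 / 3) * V ω ^ 3 + (1 / 3) * V' ω ^ 3 := by
    intro ω
    have h : (0 : ℝ) ≤ V ω := hV ω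
    have h' : (0 : ℝ) ≤ V' ω := hV' ω
    nlinarith [mul_nonneg h (sq_nonneg (V ω - V' ω)), mul_nonneg h' (sq_nonneg (V ω - V' ω))]
  have pt2 : ∀ ω, V ω * V' ω ≤ 1 + ((1 / 2) * V ω ^ 3 + (1 / 2) * V' ω ^ 3) := by
    intro ω
    have h : (0 : ℝ) ≤ V ω := hV ω
    have h' : (0 : ℝ) ≤ V' ω := hV' ω
    have e1 : V ω ^ 2 ≤ 1 + V ω ^ 3 := by
      nlinarith [mul_nonneg h (sq_nonneg (V ω - 1)), sq_nonneg (V ω - 1), sq_nonneg (V ω)]
    have e2 : V' ω ^ 2 ≤ 1 + V' ω ^ 3 := by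
      nlinarith [mul_nonneg h' (sq_nonneg (V' ω - 1)), sq_nonneg (V' ω - 1), sq_nonneg (V' ω)]
    nlinarith [sq_nonneg (V ω - V' ω)]
  have i23 : Integrable (fun ω => (2 / 3) * V ω ^ 3 + (1 / 3) * V' ω ^ 3) μ :=
    (i3.const_mul _).add (i3'.const_mul _)
  have i12 : Integrable (fun ω => (1 / 2) * V ω ^ 3 + (1 / 2) * V' ω ^ 3) μ :=
    (i3.const_mul _).add (i3'.const_mul _)
  have i112 : Integrable (fun ω => 1 + ((1 / 2) * V ω ^ 3 + (1 / 2) * V' ω ^ 3)) μ :=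
    (integrable_const (1 : ℝ)).add i12
  have h2 : Integrable (fun ω => V ω * V' ω) μ := by
    refine Integrable.mono' i112 (aV.mul aV') (Filter.Eventually.of_forall fun ω => ?_)
    rw [Real.norm_eq_abs, abs_of_nonneg (mul_nonneg (hV ω) (hV' ω))]
    exact pt2 ω
  have h3 : Integrable (fun ω => V ω ^ 2 * V' ω) μ := by
    refine Integrable.mono' i23 ((aV.pow 2).mul aV') (Filter.Eventually.of_forall fun ω => ?_)
    rw [Real.norm_eq_abs, abs_of_nonneg (mul_nonneg (sq_nonneg _) (hV' ω))]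
    exact pt ω
  refine ⟨h1, h2, h3, ?_, ?_⟩
  · calc ∫ ω, V ω ^ 2 * V' ω ∂μ ≤ ∫ ω, ((2 / 3) * V ω ^ 3 + (1 / 3) * V' ω ^ 3) ∂μ :=
          integral_mono h3 i23 pt
      _ = (2 / 3) * ∫ ω, V ω ^ 3 ∂μ + (1 / 3) * ∫ ω, V' ω ^ 3 ∂μ := by
          rw [integral_add (i3.const_mul _) (i3'.const_mul _), integral_const_mul,
            integral_const_mul]
      _ ≤ M := by linarith
  · calc ∫ ω, V ω * V' ω ∂μ ≤ ∫ ω, (1 + ((1 / 2) * V ω ^ 3 + (1 / 2) * V' ω ^ 3)) ∂μ :=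
          integral_mono h2 i112 pt2
      _ = 1 + ((1 / 2) * ∫ ω, V ω ^ 3 ∂μ + (1 / 2) * ∫ ω, V' ω ^ 3 ∂μ) := by
          rw [integral_add (integrable_const _) i12,
            integral_add (i3.const_mul _) (i3'.const_mul _), integral_const_mul,
            integral_const_mul]
          simp
      _ ≤ 1 + M := by linarith

/-- **(1) of #14341**: covariance bound from the sandwich, third moments only. -/
theorem cov_le [IsProbabilityMeasure μ] {V V' : Ω → ℝ} (hV : 0 ≤ V) (hV' : 0 ≤ V') {M T : ℝ}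
    (aV : AEStronglyMeasurable V μ) (aV' : AEStronglyMeasurable V' μ)
    (i3 : Integrable (fun ω => V ω ^ 3) μ) (i3' : Integrable (fun ω => V' ω ^ 3) μ)
    (b3 : ∫ ω, V ω ^ 3 ∂μ ≤ M) (b3' : ∫ ω, V' ω ^ 3 ∂μ ≤ M) (hT0 : 0 ≤ T)
    (hT : ∀ l : ℝ, 0 < l → l ≤ 1 → ∫ ω, exp (-(l * V ω) - l * V' ω) ∂μ
      ≤ exp T * ((∫ ω, exp (-(l * V ω)) ∂μ) * ∫ ω, exp (-(l * V' ω)) ∂μ)) :
    ∫ ω, V ω * V' ω ∂μ - (∫ ω, V ω ∂μ) * ∫ ω, V' ω ∂μ ≤ (2 + M) * T ^ (1 / 3 : ℝ) := by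
  obtain ⟨iV, iVV, i21, b21, bVV⟩ := mixed hV hV' aV aV' i3 i3' b3 b3'
  obtain ⟨iV', -, i12, b12, -⟩ := mixed hV' hV aV' aV i3' i3 b3' b3
  have i12' : Integrable (fun ω => V ω * V' ω ^ 2) μ := by simpa [mul_comm] using i12
  have b12' : ∫ ω, V ω * V' ω ^ 2 ∂μ ≤ M := by simpa [mul_comm] using b12
  have hM : 0 ≤ M := le_trans (integral_nonneg fun ω => pow_nonneg (hV ω) 3) b3
  have P0 : 0 ≤ (∫ ω, V ω ∂μ) * ∫ ω, V' ω ∂μ :=
    mul_nonneg (integral_nonneg hV) (integral_nonneg hV')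
  have main : ∀ l : ℝ, 0 < l → l ≤ 1 →
      ∫ ω, V ω * V' ω ∂μ - (∫ ω, V ω ∂μ) * ∫ ω, V' ω ∂μ ≤ (exp T - 1) / l ^ 2 + l * M :=
    fun l hl hl1 => cov_le_aux hV hV' hl iV iV' iVV i21 i12' b21 b12' (hT l hl hl1) hT0
  rcases lt_or_ge 1 T with h | h
  · -- trivial bound
    have h1 : (1 : ℝ) ≤ T ^ (1 / 3 : ℝ) := Real.one_le_rpow h.le (by norm_num)
    nlinarith [mul_le_mul_of_nonneg_left h1 (by linarith : 0 ≤ 2 + M)]
  · rcases hT0.eq_or_lt with h0 | h0
    · -- T = 0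
      subst h0
      rw [Real.zero_rpow (by norm_num), mul_zero]
      by_contra hcon
      push Not at hcon
      set κ := ∫ ω, V ω * V' ω ∂μ - (∫ ω, V ω ∂μ) * ∫ ω, V' ω ∂μ with hκ
      have hl : 0 < min 1 (κ / (2 * (M + 1))) := lt_min one_pos (by positivity)
      have := main _ hl (min_le_left _ _)
      rw [Real.exp_zero, sub_self, zero_div, zero_add] at this
      have h2 : min 1 (κ / (2 * (M + 1))) * M ≤ κ / (2 * (M + 1)) * M :=
        mul_le_mul_of_nonneg_right (min_le_right _ _) hM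
      have h3 : κ / (2 * (M + 1)) * M ≤ κ / 2 := by
        rw [div_mul_eq_mul_div, div_le_div_iff₀ (by positivity) (by norm_num)]
        nlinarith
      linarith
    · -- 0 < T ≤ 1
      set l := T ^ (1 / 3 : ℝ) with hl
      have l0 : 0 < l := Real.rpow_pos_of_pos h0 _
      have l1 : l ≤ 1 := Real.rpow_le_one h0.le h (by norm_num)
      have l3 : l ^ 3 = T := by
        rw [hl, ← Real.rpow_natCast, ← Real.rpow_mul h0.le]; norm_num
      have hexp : exp T - 1 ≤ 2 * T := by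
        have := Real.abs_exp_sub_one_sub_id_le (x := T) (by rw [abs_of_pos h0]; exact h)
        have := (abs_le.1 this).2
        nlinarith
      have := main l l0 l1
      have h4 : (exp T - 1) / l ^ 2 ≤ 2 * l := by
        rw [div_le_iff₀ (by positivity)]
        calc exp T - 1 ≤ 2 * T := hexp
          _ = 2 * l * l ^ 2 := by rw [← l3]; ring
      nlinarith

end Vale.Agent.P159.TM.H279
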