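import Vale.Agent.P159.TM.H279.Scale
import Vale.Agent.P159.TM.H279.Grid

/-!
P159, T1: abstract leaves (1)-(3) of #14341 (variance of averages, lower tail by Hölder over the
scales, comparison of the tilted measures).
-/

namespace Vale.Agent.P159.TM.H279

open MeasureTheory Real Finset

variable {Ω : Type*} [MeasurableSpace Ω] {μ : Measure Ω}

/-! ### Variance of an average -/

lemma var_eq [IsProbabilityMeasure μ] {f : Ω → ℝ} (h1 : Integrable f μ)
    (h2 : Integrable (fun ω => f ω ^ 2) μ) :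
    ∫ ω, (f ω - ∫ x, f x ∂μ) ^ 2 ∂μ = ∫ ω, f ω ^ 2 ∂μ - (∫ ω, f ω ∂μ) ^ 2 := by
  set m := ∫ x, f x ∂μ with hm
  have e : (fun ω => (f ω - m) ^ 2) = fun ω => f ω ^ 2 - 2 * m * f ω + m ^ 2 := by
    funext ω; ring
  have j1 : Integrable (fun ω => 2 * m * f ω) μ := h1.const_mul _
  have j2 : Integrable (fun ω => f ω ^ 2 - 2 * m * f ω) μ := h2.sub j1
  rw [e, integral_add j2 (integrable_const _), integral_sub h2 j1, integral_const_mul, ← hm]
  simp
  ring

theorem var_avg [IsProbabilityMeasure μ] {ι : Type*} [Fintype ι] {V : ι → Ω → ℝ}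
    (h1 : ∀ i, Integrable (V i) μ) (h2 : ∀ i j, Integrable (fun ω => V i ω * V j ω) μ) (n : ℝ) :
    Integrable (fun ω => (∑ i, V i ω) / n) μ ∧ Integrable (fun ω => ((∑ i, V i ω) / n) ^ 2) μ ∧
    ∫ ω, ((∑ i, V i ω) / n - ∫ x, (∑ i, V i x) / n ∂μ) ^ 2 ∂μ
      = (∑ i, ∑ j, (∫ ω, V i ω * V j ω ∂μ - (∫ ω, V i ω ∂μ) * ∫ ω, V j ω ∂μ)) / n ^ 2 := by
  have i1 : Integrable (fun ω => ∑ i, V i ω) μ := integrable_finsetSum _ fun i _ => h1 i
  have e2 : (fun ω => ((∑ i, V i ω) / n) ^ 2) = fun ω => (∑ i, ∑ j, V i ω * V j ω) / n ^ 2 := by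
    funext ω
    rw [div_pow, sq (∑ i, V i ω), sum_mul_sum]
  have i2 : Integrable (fun ω => ∑ i, ∑ j, V i ω * V j ω) μ :=
    integrable_finsetSum _ fun i _ => integrable_finsetSum _ fun j _ => h2 i j
  have i3 : Integrable (fun ω => ((∑ i, V i ω) / n) ^ 2) μ := by rw [e2]; exact i2.div_const _
  refine ⟨i1.div_const _, i3, ?_⟩
  rw [var_eq (i1.div_const _) i3, e2, integral_div, integral_div,
    integral_finsetSum _ (fun i _ => integrable_finsetSum _ fun j _ => h2 i j),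
    integral_finsetSum _ (fun i _ => h1 i), div_pow, ← sub_div, sq (∑ i, ∫ ω, V i ω ∂μ),
    sum_mul_sum, ← sum_sub_distrib]
  congr 1
  refine sum_congr rfl fun i _ => ?_
  rw [integral_finsetSum _ (fun j _ => h2 i j), ← sum_sub_distrib]

/-- Variance of the average over an `n × n` grid of variables whose covariances decay like
`K (1+|x-x'|)^{-c}` in the first coordinate. -/
theorem var_grid [IsProbabilityMeasure μ] {n : ℕ} (hn : 0 < n) {V : Fin n × Fin n → Ω → ℝ}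
    (h1 : ∀ i, Integrable (V i) μ) (h2 : ∀ i j, Integrable (fun ω => V i ω * V j ω) μ)
    {c K : ℝ} (h0c : 0 ≤ c) (hc1 : c < 1) (hK : 0 ≤ K)
    (hcov : ∀ u v, ∫ ω, V u ω * V v ω ∂μ - (∫ ω, V u ω ∂μ) * ∫ ω, V v ω ∂μ
      ≤ K * ((((u.1 : ℤ) - (v.1 : ℤ)).natAbs : ℝ) + 1) ^ (-c)) :
    ∫ ω, ((∑ i, V i ω) / (n : ℝ) ^ 2 - ∫ x, (∑ i, V i x) / (n : ℝ) ^ 2 ∂μ) ^ 2 ∂μ
      ≤ 2 * K / (1 - c) * (n : ℝ) ^ (-c) := by
  have hn' : (0 : ℝ) < n := by exact_mod_cast hn
  rw [(var_avg h1 h2 ((n : ℝ) ^ 2)).2.2, div_le_iff₀ (by positivity)]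
  have := grid_pair_sum h0c hc1 hK hn _ hcov
  calc _ ≤ 2 * K / (1 - c) * (n : ℝ) ^ (-c) * (n : ℝ) ^ 4 := this
    _ = _ := by ring

/-! ### One scale: decoupling -/

lemma laplace_le [IsProbabilityMeasure μ] {S : Ω → ℝ} (hS : 0 ≤ S)
    (i1 : Integrable S μ) (i2 : Integrable (fun ω => S ω ^ 2) μ) {κ : ℝ} (hκ : 0 ≤ κ) :
    ∫ ω, exp (-(κ * S ω)) ∂μ ≤ exp (-(κ * ∫ ω, S ω ∂μ) + κ ^ 2 / 2 * ∫ ω, S ω ^ 2 ∂μ) := by
  have j1 : Integrable (fun ω => κ * S ω) μ := i1.const_mul _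
  have j2 : Integrable (fun ω => κ ^ 2 / 2 * S ω ^ 2) μ := i2.const_mul _
  have j3 : Integrable (fun ω => 1 - κ * S ω) μ := (integrable_const (1 : ℝ)).sub j1
  have ie : Integrable (fun ω => exp (-(κ * S ω))) μ := by
    refine Integrable.mono' (integrable_const (1 : ℝ)) ?_ ?_
    · exact Real.continuous_exp.comp_aestronglyMeasurable ((i1.1.const_mul κ).neg)
    · refine Filter.Eventually.of_forall fun ω => ?_
      rw [Real.norm_eq_abs, abs_of_pos (exp_pos _)]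
      exact Real.exp_le_one_iff.2 (by nlinarith [mul_nonneg hκ (hS ω)])
  calc ∫ ω, exp (-(κ * S ω)) ∂μ ≤ ∫ ω, (1 - κ * S ω + κ ^ 2 / 2 * S ω ^ 2) ∂μ := by
        apply integral_mono ie (j3.add j2)
        intro ω
        have := exp_neg_le_quad (mul_nonneg hκ (hS ω))
        show exp (-(κ * S ω)) ≤ 1 - κ * S ω + κ ^ 2 / 2 * S ω ^ 2
        calc _ ≤ _ := this
          _ = _ := by ring
    _ = 1 + (-(κ * ∫ ω, S ω ∂μ) + κ ^ 2 / 2 * ∫ ω, S ω ^ 2 ∂μ) := by
        rw [integral_add j3 j2, integral_sub (integrable_const _) j1, integral_const_mul,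
          integral_const_mul]
        simp
        ring
    _ ≤ _ := by
        have := Real.add_one_le_exp (-(κ * ∫ ω, S ω ∂μ) + κ ^ 2 / 2 * ∫ ω, S ω ^ 2 ∂μ)
        linarith

/-- **One scale**: if the Laplace transform of `S` is bounded by the product of the Laplace
transforms of nonnegative variables `Sc c` (the cells, each with its own law), then `S` has a
lower tail controlled by the loss `L` of expectation and the second moments. -/
theorem tail_decouple [IsProbabilityMeasure μ] {C : Type*} [Fintype C] {Ω' : C → Type*}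
    [∀ c, MeasurableSpace (Ω' c)] (ν : ∀ c, Measure (Ω' c)) [∀ c, IsProbabilityMeasure (ν c)]
    {S : Ω → ℝ} {Sc : ∀ c, Ω' c → ℝ} (hS : ∀ c, 0 ≤ Sc c)
    (i1 : ∀ c, Integrable (Sc c) (ν c)) (i2 : ∀ c, Integrable (fun ω => Sc c ω ^ 2) (ν c))
    {κ L B : ℝ} (hκ : 0 ≤ κ)
    (hdec : ∫ ω, exp (-(κ * S ω)) ∂μ ≤ ∏ c, ∫ ω, exp (-(κ * Sc c ω)) ∂(ν c))
    (hL : ∫ ω, S ω ∂μ ≤ ∑ c, ∫ ω, Sc c ω ∂(ν c) + L)
    (hB : ∑ c, ∫ ω, Sc c ω ^ 2 ∂(ν c) ≤ B) :
    ∫ ω, exp (-(κ * (S ω - ∫ x, S x ∂μ))) ∂μ ≤ exp (κ * L + κ ^ 2 / 2 * B) := by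
  set m := ∫ x, S x ∂μ with hm
  have e : (fun ω => exp (-(κ * (S ω - m)))) = fun ω => exp (κ * m) * exp (-(κ * S ω)) := by
    funext ω; rw [← Real.exp_add]; congr 1; ring
  rw [e, integral_const_mul]
  calc exp (κ * m) * ∫ ω, exp (-(κ * S ω)) ∂μ
      ≤ exp (κ * m) * ∏ c, exp (-(κ * ∫ ω, Sc c ω ∂(ν c)) + κ ^ 2 / 2 * ∫ ω, Sc c ω ^ 2 ∂(ν c)) := by
        apply mul_le_mul_of_nonneg_left _ (exp_pos _).le
        refine hdec.trans (prod_le_prod (fun c _ => integral_nonneg fun ω => (exp_pos _).le)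
          fun c _ => laplace_le (hS c) (i1 c) (i2 c) hκ)
    _ = exp (κ * m + ∑ c, (-(κ * ∫ ω, Sc c ω ∂(ν c)) + κ ^ 2 / 2 * ∫ ω, Sc c ω ^ 2 ∂(ν c))) := by
        rw [← Real.exp_sum, ← Real.exp_add]
    _ ≤ _ := by
        apply Real.exp_le_exp.2
        rw [sum_add_distrib, sum_neg_distrib, ← mul_sum, ← mul_sum]
        have h1 := mul_le_mul_of_nonneg_left hL hκ
        have h2 := mul_le_mul_of_nonneg_left hB (by positivity : 0 ≤ κ ^ 2 / 2)
        nlinarith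

/-! ### Hölder over the scales -/

/-- **(2) of #14341**: the lower tail of a sum over scales. -/
theorem tail_scales [IsProbabilityMeasure μ] (s : Finset ℕ) {D : ℕ → Ω → ℝ} {m : ℕ → ℝ}
    (hD : ∀ i ∈ s, 0 ≤ D i) (mD : ∀ i ∈ s, AEStronglyMeasurable (D i) μ)
    {A B ρ : ℝ} (hρ : 0 < ρ)
    (tail : ∀ i ∈ s, ∀ κ : ℝ, 0 ≤ κ →
      ∫ ω, exp (-(κ * (D i ω - m i))) ∂μ ≤ exp (A * κ * ρ ^ (2 * i) + B * κ ^ 2 * ρ ^ (2 * i)))
    {a : ℝ} (ha : 0 ≤ a) :
    ∫ ω, exp (-(a * ∑ i ∈ s, (D i ω - m i))) ∂μ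
      ≤ exp (A * a * ∑ i ∈ s, ρ ^ (2 * i) + B * a ^ 2 * (∑ i ∈ s, ρ ^ i) ^ 2) := by
  classical
  rcases s.eq_empty_or_nonempty with rfl | hne
  · simp
  set S := ∑ i ∈ s, ρ ^ i with hS
  have S0 : 0 < S := sum_pos (fun i _ => pow_pos hρ i) hne
  set u : ℕ → ℝ := fun i => ρ ^ i / S with hu
  have u0 : ∀ i, 0 < u i := fun i => div_pos (pow_pos hρ i) S0
  have usum : ∑ i ∈ s, u i = 1 := by
    simp only [hu]; rw [← sum_div]; exact div_self S0.ne'
  -- integrability of the exponentials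
  have ie : ∀ i ∈ s, ∀ κ : ℝ, 0 ≤ κ → Integrable (fun ω => exp (-(κ * (D i ω - m i)))) μ := by
    intro i hi κ hκ
    refine Integrable.mono' (integrable_const (exp (κ * m i))) ?_ ?_
    · exact Real.continuous_exp.comp_aestronglyMeasurable
        ((((mD i hi).sub aestronglyMeasurable_const).const_mul κ).neg)
    · refine Filter.Eventually.of_forall fun ω => ?_
      rw [Real.norm_eq_abs, abs_of_pos (exp_pos _)]
      apply Real.exp_le_exp.2
      nlinarith [mul_nonneg hκ (hD i hi ω)]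
  have hfe : ∀ ω, exp (-(a * ∑ i ∈ s, (D i ω - m i)))
      = ∏ i ∈ s, (exp (-((a / u i) * (D i ω - m i)))) ^ (u i) := by
    intro ω
    rw [mul_sum, ← sum_neg_distrib, Real.exp_sum]
    refine prod_congr rfl fun i _ => ?_
    rw [← Real.exp_mul]
    congr 1
    have := (u0 i).ne'
    field_simp
  have H := ENNReal.lintegral_prod_norm_pow_le (μ := μ) s
    (f := fun i ω => ENNReal.ofReal (exp (-((a / u i) * (D i ω - m i)))))
    (fun i hi => by
      apply AEMeasurable.ennreal_ofReal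
      exact (Real.continuous_exp.comp_aestronglyMeasurable
        ((((mD i hi).sub aestronglyMeasurable_const).const_mul (a / u i)).neg)).aemeasurable)
    (p := u) usum (fun i _ => (u0 i).le)
  have hl : (∫⁻ ω, ∏ i ∈ s, ENNReal.ofReal (exp (-((a / u i) * (D i ω - m i)))) ^ (u i) ∂μ)
      = ∫⁻ ω, ENNReal.ofReal (exp (-(a * ∑ i ∈ s, (D i ω - m i)))) ∂μ := by
    apply lintegral_congr
    intro ω
    rw [hfe ω, ENNReal.ofReal_prod_of_nonneg (fun i _ => by positivity)]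
    refine prod_congr rfl fun i _ => ?_
    rw [ENNReal.ofReal_rpow_of_pos (exp_pos _)]
  have hr : ∀ i ∈ s, (∫⁻ ω, ENNReal.ofReal (exp (-((a / u i) * (D i ω - m i)))) ∂μ) ^ (u i)
      ≤ ENNReal.ofReal (exp (A * a * ρ ^ (2 * i) + B * a ^ 2 * (S * ρ ^ i))) := by
    intro i hi
    have hk : 0 ≤ a / u i := div_nonneg ha (u0 i).le
    rw [← ofReal_integral_eq_lintegral_ofReal (ie i hi _ hk)
      (Filter.Eventually.of_forall fun ω => (exp_pos _).le)]
    have h1 := tail i hi _ hk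
    calc ENNReal.ofReal (∫ ω, exp (-((a / u i) * (D i ω - m i))) ∂μ) ^ (u i)
        ≤ ENNReal.ofReal (exp (A * (a / u i) * ρ ^ (2 * i) + B * (a / u i) ^ 2 * ρ ^ (2 * i)))
            ^ (u i) := by
          apply ENNReal.rpow_le_rpow (ENNReal.ofReal_le_ofReal h1) (u0 i).le
      _ = ENNReal.ofReal (exp (A * a * ρ ^ (2 * i) + B * a ^ 2 * (S * ρ ^ i))) := by
          rw [ENNReal.ofReal_rpow_of_pos (exp_pos _), ← Real.exp_mul]
          congr 2
          have hui := (u0 i).ne'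
          have hρi : (ρ ^ i) ≠ 0 := (pow_pos hρ i).ne'
          have e2 : ρ ^ (2 * i) = ρ ^ i * ρ ^ i := by rw [two_mul, pow_add]
          rw [e2]
          simp only [hu]
          field_simp
  have hint : Integrable (fun ω => exp (-(a * ∑ i ∈ s, (D i ω - m i)))) μ := by
    refine Integrable.mono' (integrable_const (exp (a * ∑ i ∈ s, m i))) ?_ ?_
    · refine Real.continuous_exp.comp_aestronglyMeasurable (AEStronglyMeasurable.neg ?_)
      apply AEStronglyMeasurable.const_mul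
      exact Finset.aestronglyMeasurable_fun_sum s
        (fun i hi => (mD i hi).sub aestronglyMeasurable_const)
    · refine Filter.Eventually.of_forall fun ω => ?_
      rw [Real.norm_eq_abs, abs_of_pos (exp_pos _)]
      apply Real.exp_le_exp.2
      rw [sum_sub_distrib]
      have : 0 ≤ ∑ i ∈ s, D i ω := sum_nonneg fun i hi => hD i hi ω
      nlinarith [mul_nonneg ha this]
  have hfin : ENNReal.ofReal (∫ ω, exp (-(a * ∑ i ∈ s, (D i ω - m i))) ∂μ)
      ≤ ENNReal.ofReal (exp (A * a * ∑ i ∈ s, ρ ^ (2 * i) + B * a ^ 2 * (∑ i ∈ s, ρ ^ i) ^ 2)) := by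
    rw [ofReal_integral_eq_lintegral_ofReal hint
      (Filter.Eventually.of_forall fun ω => (exp_pos _).le), ← hl]
    refine H.trans ?_
    refine (Finset.prod_le_prod' hr).trans ?_
    rw [← ENNReal.ofReal_prod_of_nonneg (fun i _ => (exp_pos _).le), ← Real.exp_sum]
    apply le_of_eq
    congr 2
    rw [sum_add_distrib, ← mul_sum, ← mul_sum, ← mul_sum, ← hS]; ring
  exact (ENNReal.ofReal_le_ofReal_iff (exp_pos _).le).1 hfin

end Vale.Agent.P159.TM.H279
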